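import Mathlib
import Vale.Agent.P361.Main

/-! Sharp lower half of Bloch's law for every spin. -/

namespace Vale.Agent.Results.P361.BlochLowerHalf

open Filter Topology Vale.Agent.P361

theorem result (n : ℕ) (hn : 1 ≤ n) :
    ∃ (p : ℝ → ℝ → ℝ) (m : ℝ → ℝ),
      (∀ β : ℝ, 0 < β → ∀ h : ℝ, Tendsto (fun N => pressure n N β h) atTop (𝓝 (p β h))) ∧
      (∀ β : ℝ, 0 < β → HasDerivWithinAt (p β) (m β) (Set.Ioi 0) 0) ∧
      ∀ ε : ℝ, 0 < ε → ∀ᶠ β in atTop,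
        blochConst n - ε ≤ β ^ (3 / 2 : ℝ) * (spin n - m β) :=
  ⟨plim n, mag n, fun _ hβ h => plim_tendsto n hβ h, fun _ hβ => mag_hasDeriv n hβ,
    bloch_lower n hn⟩

end Vale.Agent.Results.P361.BlochLowerHalf
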